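import Vale.Agent.P193.Full.Calc.Maps.Chain
import Vale.Agent.P193.Full.Core.Loops.Words

/-! The congruence of words given by chains satisfies the abstract laws, and closes the loop
hypothesis once all loops are congruent to the empty word. -/

namespace Vale.Agent.P193.Calc

open Classical

namespace Setup

variable {S : Type} {D : Setup S}

private theorem apartAC' : Apart colA colC := by simp [Apart, colA, colC]

private theorem apartBC' : Apart colB colC := by simp [Apart, colB, colC]

private theorem freeABC : Free [colA, colB, colC] :=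
  ⟨[true, true], by simp [Apart, colA, colB, colC]⟩

/-- Two words are congruent on a set when their standard chains agree. -/
structure Cong (D : Setup S) (e : Set S) (u v : List D.ι) : Prop where
  left : D.WDef u e
  right : D.WDef v e
  eq : D.echain colA colB e u = D.echain colA colB e v

/-- Indices with the same graph have the same generator. -/
def SameG (D : Setup S) : Prop := ∀ i j, D.g i = D.g j → D.G i = D.G j

theorem wdef_iff (w : List D.ι) :
    ∀ {e : Set S}, D.WDef w e ↔ ∀ x ∈ e, ∃ y, (x, y) ∈ D.wgraph w := by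
  induction w with
  | nil => exact ⟨fun _ x _ => ⟨x, rfl, trivial⟩, fun _ => trivial⟩
  | cons i w ih =>
    intro e
    constructor
    · rintro ⟨h1, h2⟩ x hx
      obtain ⟨z, hz⟩ := h1 hx
      obtain ⟨y, hy⟩ := ih.1 h2 z ⟨x, hx, hz⟩
      exact ⟨y, z, hz, hy⟩
    · intro h
      refine ⟨fun x hx => ?_, ih.2 ?_⟩
      · obtain ⟨y, z, hz, -⟩ := h x hx
        exact ⟨z, hz⟩
      · rintro z ⟨x, hx, hz⟩
        obtain ⟨y, z', hz', hy⟩ := h x hx
        obtain rfl := (D.g_pb i).1 x z z' hz hz'
        exact ⟨y, hy⟩

theorem mem_wimg_iff (w : List D.ι) :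
    ∀ {e : Set S} {y : S}, y ∈ D.wimg w e ↔ ∃ x ∈ e, (x, y) ∈ D.wgraph w := by
  induction w with
  | nil =>
    intro e y
    refine ⟨fun h => ⟨y, h, rfl, trivial⟩, fun ⟨x, hx, h⟩ => ?_⟩
    obtain rfl : x = y := h.1
    exact hx
  | cons i w ih =>
    intro e y
    show y ∈ D.wimg w (D.img i e) ↔ _
    rw [ih]
    exact ⟨fun ⟨z, ⟨x, hx, hz⟩, h⟩ => ⟨x, hx, z, hz, h⟩,
      fun ⟨x, hx, z, hz, h⟩ => ⟨z, ⟨x, hx, hz⟩, h⟩⟩

variable {α : Type} {T : Loops.Sys S α} {ix : α → D.ι}

theorem run_iff (hix : ∀ l, D.g (ix l) = T.g l) (w : List α) :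
    ∀ {x y : S}, T.Run w x y ↔ (x, y) ∈ D.wgraph (w.map ix) := by
  induction w with
  | nil => intro x y; exact ⟨fun h => ⟨h, trivial⟩, fun h => h.1⟩
  | cons l w ih =>
    intro x y
    constructor
    · rintro ⟨z, hz, h⟩
      exact ⟨z, by rw [hix]; exact hz, ih.1 h⟩
    · rintro ⟨z, hz, h⟩
      exact ⟨z, by rw [← hix]; exact hz, ih.2 h⟩

theorem sys_wimg (hix : ∀ l, D.g (ix l) = T.g l) (w : List α) (e : Set S) :
    T.wimg w e = D.wimg (w.map ix) e := by
  ext y
  rw [mem_wimg_iff]
  exact exists_congr fun x => and_congr_right fun _ => run_iff hix w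

theorem sys_wdef (hix : ∀ l, D.g (ix l) = T.g l) {w : List α} {e : Set S} (h : e ⊆ T.dom w) :
    D.WDef (w.map ix) e :=
  (wdef_iff _).2 fun _ hx => (h hx).imp fun _ hy => (run_iff hix w).1 hy

variable (hb : D.Base)
include hb

theorem def_dom (hix : ∀ l, D.g (ix l) = T.g l) (w : List α) : D.Def (T.dom w) := by
  have e : T.dom w = D.wimg ((T.winv w).map ix) Set.univ := by
    rw [← sys_wimg hix]
    ext x
    exact ⟨fun ⟨y, h⟩ => ⟨y, trivial, Loops.Sys.run_inv.2 h⟩,
      fun ⟨y, _, h⟩ => ⟨y, Loops.Sys.run_inv.1 h⟩⟩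
  rw [e]
  exact def_wimg hb def_univ _

/-- The chains of the standard colours determine the others that are needed. -/
theorem echain_colours {e : Set S} (he : D.Def e) {w : List D.ι} (hw : D.WDef w e) :
    D.φ (vswap apartBC') * D.echain colA colB e w * (D.φ (vswap apartBC'))⁻¹ =
        D.echain colA colC e w ∧
      D.φ (vswap apartAC') * D.echain colA colB e w * (D.φ (vswap apartAC'))⁻¹ =
        D.echain colC colB e w :=
  ⟨echain_conj hb colAB apartAC' (freeABC.sub (by simp)) (freeABC.sub (by simp))
      (fixCone_vswap apartBC' colAB apartAC') (mapsCone_vswap apartBC') he hw,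
    echain_conj hb colAB apartBC'.symm (freeABC.sub (by simp)) (freeABC.sub (by simp))
      (mapsCone_vswap apartAC') (fixCone_vswap apartAC' colAB.symm apartBC') he hw⟩

theorem Cong.eqAC {e : Set S} {u v : List D.ι} (he : D.Def e) (h : D.Cong e u v) :
    D.echain colA colC e u = D.echain colA colC e v := by
  rw [← (echain_colours hb he h.left).1, ← (echain_colours hb he h.right).1, h.eq]

theorem Cong.eqCB {e : Set S} {u v : List D.ι} (he : D.Def e) (h : D.Cong e u v) :
    D.echain colC colB e u = D.echain colC colB e v := by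
  rw [← (echain_colours hb he h.left).2, ← (echain_colours hb he h.right).2, h.eq]

theorem echain_cut {e : Set S} (he : D.Def e) {u v : List D.ι} (hu : D.WDef u e)
    (hv : D.WDef v (D.wimg u e)) :
    D.echain colA colB e (u ++ v) =
      D.echain colA colC e u * D.echain colC colB (D.wimg u e) v * D.echain colA colC e u :=
  (echain_concat hb colAB apartAC'.symm apartBC'.symm (freeABC.sub (by simp)) he hu hv).symm

theorem Cong.mono {e e' : Set S} {u v : List D.ι} (he : D.Def e) (he' : D.Def e') (hsub : e' ⊆ e)
    (h : D.Cong e u v) : D.Cong e' u v := by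
  have key : ∀ w, D.WDef w e →
      D.echain colA colB e w * D.sw e' colA colC * D.echain colA colB e w =
        D.echain colC colB e' w := by
    intro w hw
    have hr : D.Def (e \ e') := he.sdiff he'
    have hwr : D.WDef w (e \ e') := wdef_mono Set.sdiff_subset hw
    have hw' := wdef_mono hsub hw
    have hun : D.echain colA colB e w =
        D.echain colA colB e' w * D.echain colA colB (e \ e') w := by
      rw [← echain_union hb he' hr Set.disjoint_sdiff_right, Set.union_sdiff_cancel hsub]
    have hun' : D.echain colA colB e w =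
        D.echain colA colB (e \ e') w * D.echain colA colB e' w := by
      rw [← echain_inv hb, hun, mul_inv_rev, echain_inv hb, echain_inv hb]
    have c := echain_comm_sw_src hb (f := e') colAB apartAC' colAB.symm apartBC'
      (freeABC.sub (by simp)) hr hwr he' Set.disjoint_sdiff_right
    have l := echain_LB hb colAB apartAC'.symm apartBC'.symm (freeABC.sub (by simp)) he' hw'
    nth_rewrite 1 [hun]
    rw [hun', ← l]
    calc _ = D.echain colA colB e' w * (D.echain colA colB (e \ e') w * D.sw e' colA colC) *
          D.echain colA colB (e \ e') w * D.echain colA colB e' w := by group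
      _ = D.echain colA colB e' w * D.sw e' colA colC *
          (D.echain colA colB (e \ e') w * D.echain colA colB (e \ e') w) *
          D.echain colA colB e' w := by rw [c.eq]; group
      _ = _ := by rw [echain_sq hb, mul_one]
  have hu := wdef_mono hsub h.left
  have hv := wdef_mono hsub h.right
  have e1 : D.echain colC colB e' u = D.echain colC colB e' v := by
    rw [← key u h.left, ← key v h.right, h.eq]
  rw [← (echain_colours hb he' hu).2, ← (echain_colours hb he' hv).2] at e1
  exact ⟨hu, hv, mul_left_cancel (mul_right_cancel e1)⟩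

/-- Chains give the laws of a congruence. -/
theorem cong_laws (hix : ∀ l, D.g (ix l) = T.g l) (hG : SameG D) :
    Loops.Laws T D.Def fun e u v => D.Cong e (u.map ix) (v.map ix) where
  univ := def_univ
  img l e he := by rw [sys_wimg hix]; exact def_wimg hb he _
  inter _ _ he he' := he.inter he'
  diff _ _ he he' := he.sdiff he'
  empty _ _ := ⟨(wdef_iff _).2 fun _ h => absurd h (Set.notMem_empty _),
    (wdef_iff _).2 fun _ h => absurd h (Set.notMem_empty _),
    by rw [echain_empty hb, echain_empty hb]⟩
  refl _ _ _ h := ⟨sys_wdef hix h, sys_wdef hix h, rfl⟩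
  symm _ _ _ h := ⟨h.right, h.left, h.eq.symm⟩
  trans _ _ _ _ h h' := ⟨h.left, h'.right, h.eq.trans h'.eq⟩
  front e a u v he hau hav h := by
    rw [sys_wimg hix] at h
    have h1 := sys_wdef hix hau
    have h2 := sys_wdef hix hav
    rw [List.map_append] at h1 h2 ⊢
    rw [List.map_append]
    have ha := ((wdef_append _ _ _).1 h1).1
    exact ⟨h1, h2, by rw [echain_cut hb he ha h.left, echain_cut hb he ha h.right,
      h.eqCB hb (def_wimg hb he _)]⟩
  back e u v b he hub hvb same h := by
    have hw : D.wimg (u.map ix) e = D.wimg (v.map ix) e := by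
      rw [← sys_wimg hix, ← sys_wimg hix]
      ext y
      constructor
      · rintro ⟨x, hx, hy⟩
        obtain ⟨y', h1, h2⟩ := same x hx
        exact ⟨x, hx, Loops.Sys.run_func h1 hy ▸ h2⟩
      · rintro ⟨x, hx, hy⟩
        obtain ⟨y', h1, h2⟩ := same x hx
        exact ⟨x, hx, Loops.Sys.run_func h2 hy ▸ h1⟩
    have h1 := sys_wdef hix hub
    have h2 := sys_wdef hix hvb
    rw [List.map_append] at h1 h2 ⊢
    rw [List.map_append]
    exact ⟨h1, h2, by rw [echain_cut hb he h.left ((wdef_append _ _ _).1 h1).2,
      echain_cut hb he h.right ((wdef_append _ _ _).1 h2).2, h.eqAC hb he, hw]⟩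
  cancel e l he hdom := by
    have hk : D.g (ix (T.inv l)) = ginv (D.g (ix l)) := by rw [hix, hix, T.g_inv]
    obtain ⟨j, hj, hGj⟩ := hb.inv (ix l)
    have hGk := (hG _ j (hk.trans hj.symm)).trans hGj
    have hd : D.WDef [ix l] e := sys_wdef (w := [l]) hix hdom
    have hwd : D.WDef [ix l, ix (T.inv l)] e :=
      ⟨hd.1, by rintro t ⟨s, -, hst⟩; exact ⟨s, by rw [hk]; exact hst⟩, trivial⟩
    refine ⟨hwd, trivial, ?_⟩
    show D.echain colA colB e [ix l, ix (T.inv l)] = D.echain colA colB e []
    rw [echain_cons hb colAB apartAC'.symm apartBC'.symm (freeABC.sub (by simp)) he hwd,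
      echain_cons hb apartBC'.symm apartAC' colAB (freeABC.sub (by simp)) (def_img hb he _) hwd.2,
      img_partner hk hd.1, place_partner hb hGk apartAC' (freeABC.sub (by simp)), place_inv hb]
    calc _ = (D.place (ix l) colA colC * D.place (ix l) colA colC) * D.echain colA colB e [] *
          (D.place (ix l) colA colC * D.place (ix l) colA colC) := by group
      _ = _ := by rw [place_sq hb, one_mul, mul_one]
  split e e' u v he he' h h' := by
    have hd : Disjoint (e ∩ e') (e \ e') := Set.disjoint_sdiff_inter.symm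
    have hwd : ∀ w, D.WDef w (e ∩ e') → D.WDef w (e \ e') → D.WDef w e := fun w a b =>
      (wdef_iff w).2 fun x hx => by
        by_cases hx' : x ∈ e'
        · exact (wdef_iff w).1 a x ⟨hx, hx'⟩
        · exact (wdef_iff w).1 b x ⟨hx, hx'⟩
    refine ⟨hwd _ h.left h'.left, hwd _ h.right h'.right, ?_⟩
    rw [← Set.inter_union_sdiff e e', echain_union hb (he.inter he') (he.sdiff he') hd,
      echain_union hb (he.inter he') (he.sdiff he') hd, h.eq, h'.eq]
  mono _ _ _ _ he he' hsub h := Cong.mono hb he he' hsub h

omit hb in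
theorem wgraph_map {f : D.ι → D.ι} (hf : ∀ i, D.g (f i) = D.g i) (w : List D.ι) :
    D.wgraph (w.map f) = D.wgraph w := by
  induction w with
  | nil => rfl
  | cons i w ih =>
    show gcomp (D.g (f i)) (D.wgraph (w.map f)) = gcomp (D.g i) (D.wgraph w)
    rw [hf, ih]

omit hb in
theorem chain_map (hG : SameG D) {f : D.ι → D.ι} (hf : ∀ i, D.g (f i) = D.g i) (w : List D.ι) :
    ∀ (p r q : List Bool) (e : Set S), D.chain p r q e (w.map f) = D.chain p r q e w := by
  induction w with
  | nil => intro p r q e; rfl
  | cons i w ih =>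
    intro p r q e
    rw [List.map_cons, chain_cons, chain_cons, ih]
    simp only [place, img, hf, hG _ _ (hf i)]

/-- The loop hypothesis from congruence of all loops. -/
theorem loops_of_cong (hix : ∀ l, D.g (ix l) = T.g l) (hG : SameG D)
    (hsurj : ∀ i, ∃ l, T.g l = D.g i)
    (hall : ∀ e w, D.Def e → (∀ x ∈ e, T.Run w x x) → D.Cong e (w.map ix) []) : D.Loops := by
  choose l hl using hsurj
  intro w e he hwd hloop
  have hf : ∀ i, D.g (ix (l i)) = D.g i := fun i => (hix _).trans (hl i)
  have hmap : (w.map l).map ix = w.map fun i => ix (l i) := by rw [List.map_map]; rfl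
  have hrun : ∀ x ∈ e, T.Run (w.map l) x x := fun x hx => by
    rw [run_iff hix, hmap, wgraph_map hf]
    exact hloop x hx
  have h := (hall e _ he hrun).eq
  rw [hmap, echain, chain_map hG hf, ← echain] at h
  rw [chain_eq hb colAB apartAC'.symm apartBC'.symm (freeABC.sub (by simp)) he hwd, h,
    echain_nil, sw_eq colAB]

end Setup

end Vale.Agent.P193.Calc
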