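import Vale.Agent.P193.Full.Core.Loops.Bridge.Words
import Vale.Agent.P193.Full.Core.Loops.Flats
import Vale.Agent.P193.Full.Core.Inst.Words

/-! In the models of a core frame the chains of the setup give the congruence context of the
loop argument, and all loops congruent to the empty word give the loop hypothesis. -/

namespace Vale.Agent.P193.Core.Loops

open Calc Facts

set_option linter.unusedSectionVars false

variable {d : Data} [DecidableEq d.M.A]

instance finite_letterAtom : Finite (Atom d) := by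
  have := finite_state (d := d)
  have := finite_ltr (d := d)
  have := (finite_edges (d := d)).to_subtype
  have hk : Finite (GidK d) := by
    refine Finite.of_surjective
      (fun
        | .inl s => .st s
        | .inr (.inl s) => .zFront s
        | .inr (.inr j) => ![.zOne, .hOne, .tag, .clean, .gOne, .kSet] j :
        State d ⊕ (Ltr d × Bool) ⊕ Fin 6 → GidK d) fun x => ?_
    cases x with
    | st s => exact ⟨.inl s, rfl⟩
    | zFront s => exact ⟨.inr (.inl s), rfl⟩
    | zOne => exact ⟨.inr (.inr 0), rfl⟩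
    | hOne => exact ⟨.inr (.inr 1), rfl⟩
    | tag => exact ⟨.inr (.inr 2), rfl⟩
    | clean => exact ⟨.inr (.inr 3), rfl⟩
    | gOne => exact ⟨.inr (.inr 4), rfl⟩
    | kSet => exact ⟨.inr (.inr 5), rfl⟩
  have hpush : Finite PushK := by
    refine Finite.of_surjective
      (![.theta, .omC, .omD, .omK, .tMap] : Fin 5 → PushK) fun x => ?_
    cases x
    exacts [⟨0, rfl⟩, ⟨1, rfl⟩, ⟨2, rfl⟩, ⟨3, rfl⟩, ⟨4, rfl⟩]
  refine Finite.of_surjective
    (fun
      | .inl k => .gid k
      | .inr (.inl a) => .outer a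
      | .inr (.inr (.inl i)) => .inner i
      | .inr (.inr (.inr (.inl j))) => .u j
      | .inr (.inr (.inr (.inr (.inl e)))) => .edge ⟨e.1, e.2⟩
      | .inr (.inr (.inr (.inr (.inr P)))) => .push P :
      GidK d ⊕ OGen d ⊕ Fin d.n ⊕ Fin 3 ⊕ ↥{e : Edge d | e.OK} ⊕ PushK → Atom d) fun x => ?_
  cases x with
  | gid k => exact ⟨.inl k, rfl⟩
  | outer a => exact ⟨.inr (.inl a), rfl⟩
  | inner i => exact ⟨.inr (.inr (.inl i)), rfl⟩
  | u j => exact ⟨.inr (.inr (.inr (.inl j))), rfl⟩
  | edge e => exact ⟨.inr (.inr (.inr (.inr (.inl ⟨e.1, e.2⟩)))), rfl⟩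
  | push P => exact ⟨.inr (.inr (.inr (.inr (.inr P)))), rfl⟩

/-- Every generating graph is the graph of an atom. -/
theorem exists_atom_graph {m : Set (Point d × Point d)} (h : Gen d m) :
    ∃ a : Atom d, a.graph = m := by
  cases h with
  | atState s => exact ⟨.gid (.st s), rfl⟩
  | edge e he => exact ⟨.edge ⟨e, he⟩, rfl⟩
  | outer₀ k hk => exact ⟨.outer (.base ⟨k, hk⟩), rfl⟩
  | outer₁ a => exact ⟨.outer (.left a), rfl⟩
  | outer₂ a => exact ⟨.outer (.right a), rfl⟩
  | inner i => exact ⟨.inner i, rfl⟩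
  | zOne => exact ⟨.gid .zOne, rfl⟩
  | @zFront s inst => exact ⟨.gid (.zFront s), by
      show Vale.Agent.P193.gid (zFrontS s) = _
      unfold zFrontS
      rw [Subsingleton.elim inst (fun a b => instDecidableEqProd a b)]⟩
  | hOne => exact ⟨.gid .hOne, rfl⟩
  | tagC => exact ⟨.gid .tag, rfl⟩
  | cleanSet => exact ⟨.gid .clean, rfl⟩
  | gOne => exact ⟨.gid .gOne, rfl⟩
  | kSet => exact ⟨.gid .kSet, rfl⟩
  | uMap₀ => exact ⟨.u 0, rfl⟩
  | uMap₁ => exact ⟨.u 1, rfl⟩
  | uMap₂ => exact ⟨.u 2, rfl⟩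
  | theta => exact ⟨.push .theta, rfl⟩
  | omC => exact ⟨.push .omC, rfl⟩
  | omD => exact ⟨.push .omD, rfl⟩
  | omK => exact ⟨.push .omK, rfl⟩
  | tMap => exact ⟨.push .tMap, rfl⟩

variable {F : Calc.Frame (Point d)}

theorem exists_ix (hF : Inst.IsCore F) (l : Letter d) : ∃ i, F.g i = Letter.graph l := by
  obtain ⟨a, _ | _⟩ := l
  · have h : ginv a.graph ∈ Inst.genSet d := Inst.genSet_ginv (Or.inl (gen_atom a))
    have h' : ginv a.graph ∈ Set.range F.g := by rw [hF]; exact h
    exact h'
  · exact hF.exists_index (gen_atom a)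

theorem exists_letter (hF : Inst.IsCore F) (i : F.ι) : ∃ l : Letter d, Letter.graph l = F.g i := by
  have h : F.g i ∈ Inst.genSet d := hF ▸ ⟨i, rfl⟩
  rcases h with h | h
  · obtain ⟨a, ha⟩ := exists_atom_graph h
    exact ⟨(a, true), ha⟩
  · obtain ⟨a, ha⟩ := exists_atom_graph h
    exact ⟨(a, false), show ginv a.graph = F.g i by rw [ha]; rfl⟩

/-- In the models of a core frame the setup gives a context for the loop argument. -/
theorem ev_bridge (hG : Good d) (hF : Inst.IsCore F) (hp : commutator (Vgrp (Point d)) = ⊤)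
    (hav : Avoids (Vgrp (Point d))) :
    F.Ev fun M => ∀ Φ : Frame.Fields (Inst.coreSys hG hF) M,
      (Φ.setup hp hav).Base →
        ∃ Df R, Df = (Φ.setup hp hav).Def ∧ Ctx hG Df R ∧
          (AllLoops hG Df R → (Φ.setup hp hav).Loops) := by
  choose ix hix using exists_ix hF
  have : Finite {l : List (Letter d) // l.length ≤ bound hG} :=
    (List.finite_length_le (Letter d) (bound hG)).to_subtype
  refine ((Frame.ev_sameG (K := Inst.coreSys hG hF) (hp := hp) (hav := hav)).and
    (Frame.Ev.all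
      (β := {l : List (Letter d) // l.length ≤ bound hG} × {l : List (Letter d) // l.length ≤ bound hG})
      (a := fun p M => Sub hG p.1.1 p.2.1 →
        ∀ Φ : Frame.Fields (Inst.coreSys hG hF) M, (Φ.setup hp hav).Base →
          (Φ.setup hp hav).Cong ((sys hG).dom p.1.1) (p.1.1.map ix) (p.2.1.map ix))
      fun p => ?_)).mono ?_
  · by_cases hs : Sub hG p.1.1 p.2.1
    · exact (Frame.ev_cong hp hav (sys hG) ix hix _ _ hs).mono fun M h _ => h
    · exact Frame.Ev.of_forall fun M h => absurd h hs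
  rintro M ⟨hsame, hrule⟩ Φ hB
  have hix' : ∀ l, (Φ.setup hp hav).g (ix l) = (sys hG).g l := hix
  refine ⟨_, _, rfl, ⟨Setup.cong_laws hB hix' (hsame Φ), fun u v hu hv hs => ?_⟩, fun hall => ?_⟩
  · exact
      { df := Setup.def_dom hB hix' u
        same := fun x hx => hx.imp fun y hy => ⟨hy, hs x y hy⟩
        rel := hrule (⟨u, hu⟩, ⟨v, hv⟩) hs Φ hB }
  · exact Setup.loops_of_cong hB hix' (hsame Φ) (fun i => exists_letter hF i)
      fun e w he hw => (hall e w he hw).rel

end Vale.Agent.P193.Core.Loops
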