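import Vale.Agent.P193.Full.Core.Loops.Bridge.Cong

/-! The permutations of chains: a chain acts as the swap of the graph of its word on the set. -/

namespace Vale.Agent.P193.Calc

open Classical
open scoped commutatorElement

variable {S : Type}

/-- The graph of a word restricted to a set. -/
def Setup.rgraph (D : Setup S) (e : Set S) (w : List D.ι) : Set (S × S) :=
  {x | x.1 ∈ e ∧ x ∈ D.wgraph w}

theorem gswap_congr {g g' : Set (S × S)} (hg : IsPB g) (hg' : IsPB g') {p q : List Bool}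
    (h : Apart p q) (e : g = g') : gswap hg h = gswap hg' h := by
  subst e; rfl

theorem gswap_of_id {g : Set (S × S)} (hg : IsPB g) {e : Set S}
    (he : ∀ s t, (s, t) ∈ g ↔ s = t ∧ s ∈ e) {p q : List Bool} (h : Apart p q) :
    gswap hg h = restr e (vswap (S := S) h) := by
  refine Equiv.ext fun z => ?_
  rcases gswap_cases p q z with ⟨f, s, rfl⟩ | ⟨f, t, rfl⟩ | ⟨h1, h2⟩
  · by_cases hs : s ∈ e
    · rw [gswap_fwd h ((he s s).2 ⟨rfl, hs⟩), restr_in (by rw [hv_pre_snd]; exact hs), vswap_fwd]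
    · rw [gswap_fix_dom h (fun ⟨y, hy⟩ => hs ((he s y).1 hy).2),
        restr_out (by rw [hv_pre_snd]; exact hs)]
  · by_cases hs : t ∈ e
    · rw [gswap_bwd h ((he t t).2 ⟨rfl, hs⟩), restr_in (by rw [hv_pre_snd]; exact hs), vswap_bwd]
    · rw [gswap_fix_ran h (fun ⟨y, hy⟩ => hs (by obtain ⟨rfl, h'⟩ := (he y t).1 hy; exact h')),
        restr_out (by rw [hv_pre_snd]; exact hs)]
  · rw [gswap_fix_out h h1 h2, restr_apply]
    split_ifs
    · rw [vswap_fix h h1 h2]
    · rfl

theorem split_aux (X Y : Set S) (v : Vgrp S) :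
    (restr (X ∩ Y) v)⁻¹ * restr X v = restr (X \ Y) v := by
  rw [restr_split X Y v, inv_mul_cancel_left]

/-- Conjugating the swap of a graph by the swap of a generator prepends the generator. -/
theorem gswap_prepend {g γ δ : Set (S × S)} (hg : IsPB g) (hγ : IsPB γ) (hδ : IsPB δ) {e : Set S}
    (hγd : ∀ t, t ∈ gdom γ → ∃ s ∈ e, (s, t) ∈ g)
    (hδ' : ∀ s u, (s, u) ∈ δ ↔ s ∈ e ∧ ∃ t, (s, t) ∈ g ∧ (t, u) ∈ γ) {p q r : List Bool}
    (hpr : Apart p r) (hrq : Apart r q) (hpq : Apart p q) :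
    gswap hg hpr * gswap hγ hrq * gswap hg hpr = gswap hδ hpq := by
  have qout : ∀ y, gswap hg hpr ((hv S).pre q y) = (hv S).pre q y := fun y =>
    gswap_fix_out hpr (fun z => hpq.symm.incomp _ z) fun z => hrq.symm.incomp _ z
  refine Equiv.ext fun z => ?_
  rw [Equiv.Perm.mul_apply, Equiv.Perm.mul_apply]
  rcases gswap_cases p q z with ⟨f, s, rfl⟩ | ⟨f, u, rfl⟩ | ⟨h1, h2⟩
  · by_cases hs : s ∈ gdom δ
    · obtain ⟨u, hsu⟩ := hs
      obtain ⟨-, t, hst, htu⟩ := (hδ' s u).1 hsu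
      rw [gswap_fwd hpr hst, gswap_fwd hrq htu, qout, gswap_fwd hpq hsu]
    · rw [gswap_fix_dom hpq hs]
      by_cases hsg : s ∈ gdom g
      · obtain ⟨t, hst⟩ := hsg
        have ht : t ∉ gdom γ := fun ht => by
          obtain ⟨s', hs', hst'⟩ := hγd t ht
          obtain rfl := hg.2 s' s t hst' hst
          obtain ⟨u, hu⟩ := ht
          exact hs ⟨u, (hδ' _ _).2 ⟨hs', t, hst, hu⟩⟩
        rw [gswap_fwd hpr hst, gswap_fix_dom hrq ht, gswap_bwd hpr hst]
      · rw [gswap_fix_dom hpr hsg,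
          gswap_fix_out hrq (fun y => hpr.incomp _ y) (fun y => hpq.incomp _ y),
          gswap_fix_dom hpr hsg]
  · rw [qout]
    by_cases hu : u ∈ gran γ
    · obtain ⟨t, htu⟩ := hu
      obtain ⟨s, hs, hst⟩ := hγd t ⟨u, htu⟩
      rw [gswap_bwd hrq htu, gswap_bwd hpr hst,
        gswap_bwd hpq ((hδ' s u).2 ⟨hs, t, hst, htu⟩)]
    · rw [gswap_fix_ran hrq hu, qout, gswap_fix_ran hpq fun ⟨s, hsu⟩ => hu (by
        obtain ⟨-, t, -, htu⟩ := (hδ' s u).1 hsu
        exact ⟨t, htu⟩)]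
  · rw [gswap_fix_out hpq h1 h2]
    by_cases h3 : ∃ y, z = (hv S).pre r y
    · obtain ⟨⟨f, t⟩, rfl⟩ := h3
      by_cases ht : t ∈ gran g
      · obtain ⟨s, hst⟩ := ht
        rw [gswap_bwd hpr hst,
          gswap_fix_out hrq (fun y => hpr.incomp _ y) (fun y => hpq.incomp _ y),
          gswap_fwd hpr hst]
      · rw [gswap_fix_ran hpr ht, gswap_fix_dom hrq (fun hd => ht (by
            obtain ⟨s, -, hst⟩ := hγd t hd
            exact ⟨s, hst⟩)), gswap_fix_ran hpr ht]
    · have h3' := not_exists.1 h3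
      rw [gswap_fix_out hpr h1 h3', gswap_fix_out hrq h3' h2, gswap_fix_out hpr h1 h3']

namespace Setup

variable {D : Setup S}

theorem isPB_wgraph (w : List D.ι) : IsPB (D.wgraph w) := by
  induction w with
  | nil =>
    exact ⟨fun _ _ _ h h' => h.1.symm.trans h'.1, fun _ _ _ h h' => h.1.trans h'.1.symm⟩
  | cons i w ih =>
    constructor
    · rintro x y z ⟨a, ha, hy⟩ ⟨b, hb, hz⟩
      obtain rfl := (D.g_pb i).1 x a b ha hb
      exact ih.1 a y z hy hz
    · rintro x y z ⟨a, ha, hy⟩ ⟨b, hb, hz⟩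
      obtain rfl := ih.2 a b z hy hz
      exact (D.g_pb i).2 x y a ha hb

theorem isPB_rgraph (e : Set S) (w : List D.ι) : IsPB (D.rgraph e w) :=
  ⟨fun x y z h h' => (isPB_wgraph w).1 x y z h.2 h'.2,
    fun x y z h h' => (isPB_wgraph w).2 x y z h.2 h'.2⟩

variable (hb : D.Base)
include hb

/-- The permutation of a field is the restriction. -/
theorem π_hfield {e : Set S} (he : D.Def e) : D.π.comp (D.h e) = restr e := by
  obtain ⟨t, rfl⟩ := he
  induction t with
  | full =>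
    show D.π.comp (D.h Set.univ) = restr Set.univ
    rw [h_univ hb.empty]
    exact MonoidHom.ext fun v => (D.π_φ v).trans (restr_univ v).symm
  | var k =>
    show D.π.comp (D.h (D.set k)) = restr (D.set k)
    exact MonoidHom.ext fun v => (congrArg D.π (DFunLike.congr_fun (h_set hb.empty k) v)).trans
      (D.π_fld_eq k v)
  | inter a b ha hb' =>
    refine hom_ext_commutators D.perfectV fun v w => ?_
    show D.π (D.ctx.field (D.ctx.tset a ∩ D.ctx.tset b) ⁅v, w⁆) = _
    rw [Ctx.field_inter_comm hb.empty ⟨a, rfl⟩ ⟨b, rfl⟩, map_commutatorElement]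
    exact (congrArg₂ (fun x y => ⁅x, y⁆) (DFunLike.congr_fun ha v)
      (DFunLike.congr_fun hb' w)).trans (restr_commutator _ _ v w)
  | diff a b ha hb' =>
    have hi : D.π.comp (D.h (D.ctx.tset a ∩ D.ctx.tset b)) =
        restr (D.ctx.tset a ∩ D.ctx.tset b) := by
      refine hom_ext_commutators D.perfectV fun v w => ?_
      show D.π (D.ctx.field (D.ctx.tset a ∩ D.ctx.tset b) ⁅v, w⁆) = _
      rw [Ctx.field_inter_comm hb.empty ⟨a, rfl⟩ ⟨b, rfl⟩, map_commutatorElement]
      exact (congrArg₂ (fun x y => ⁅x, y⁆) (DFunLike.congr_fun ha v)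
        (DFunLike.congr_fun hb' w)).trans (restr_commutator _ _ v w)
    refine MonoidHom.ext fun v => ?_
    show D.π (D.ctx.field (D.ctx.tset a \ D.ctx.tset b) v) = _
    rw [Ctx.field_sdiff hb.empty ⟨a, rfl⟩ ⟨b, rfl⟩, map_mul, map_inv]
    refine (congrArg₂ (fun x y => x⁻¹ * y) (DFunLike.congr_fun hi v)
      (DFunLike.congr_fun ha v)).trans ?_
    exact split_aux _ _ v

theorem π_place (i : D.ι) {p q : List Bool} (h : Apart p q) (hf : Free [p, q]) :
    D.π (D.place i p q) = gswap (D.g_pb i) h := by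
  obtain ⟨k, hp, hq⟩ := exists_place (S := S) h hf
  rw [place_eq hb hp hq, map_mul, map_mul, map_inv, D.π_φ, D.π_G_eq]
  exact gswap_conj (D.g_pb i) colAB h k hp hq

theorem π_chain (w : List D.ι) : ∀ {p r q : List Bool} {e : Set S}, D.Def e → D.WDef w e →
    ∀ (hpq : Apart p q), Apart r p → Apart r q → Free [r, p, q] →
      D.π (D.chain p r q e w) = gswap (isPB_rgraph e w) hpq := by
  induction w with
  | nil =>
    intro p r q e he _ hpq _ _ _
    rw [chain_nil, sw_eq hpq]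
    refine (DFunLike.congr_fun (π_hfield hb he) _).trans (gswap_of_id _ ?_ hpq).symm
    exact fun s t => ⟨fun h => ⟨h.2.1, h.1⟩, fun h => ⟨h.2, h.1, trivial⟩⟩
  | cons i w ih =>
    intro p r q e he hwd hpq hrp hrq hf
    rw [chain_cons, map_mul, map_mul, map_inv,
      ih (def_img hb he i) hwd.2 hrq hrp.symm hpq (hf.sub (by simp)),
      π_place hb i hrp.symm (hf.sub (by simp)), gswap_inv]
    refine gswap_prepend (D.g_pb i) _ _ (e := e) ?_ ?_ hrp.symm hrq hpq
    · rintro t ⟨u, ⟨s, hs, hst⟩, -⟩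
      exact ⟨s, hs, hst⟩
    · intro s u
      constructor
      · rintro ⟨hs, t, hst, htu⟩
        exact ⟨hs, t, hst, ⟨s, hs, hst⟩, htu⟩
      · rintro ⟨hs, t, hst, -, htu⟩
        exact ⟨hs, t, hst, htu⟩

/-- The permutation of a standard chain. -/
theorem π_echain {e : Set S} (he : D.Def e) {w : List D.ι} (hw : D.WDef w e) :
    D.π (D.echain colA colB e w) = gswap (isPB_rgraph e w) colAB := by
  obtain ⟨h1, h2⟩ := spare_spec free_cols
  simp only [List.mem_cons, List.not_mem_nil, or_false, forall_eq_or_imp, forall_eq] at h1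
  exact π_chain hb w he hw colAB h1.1 h1.2 h2

end Setup

end Vale.Agent.P193.Calc
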