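import Vale.Agent.P193.Full.Core.Loops.Bridge.Perm
import Vale.Agent.P193.Full.Calc.Close

/-! Chains are values of fixed words in every model, so each true inclusion between two words
gives, eventually, congruence of the two words on the domain of the first. -/

namespace Vale.Agent.P193.Calc.Frame

open Classical
open scoped commutatorElement

variable {S : Type} {F : Frame S} {K : F.FieldSys} {hp : commutator (Vgrp S) = ⊤}
  {hav : Avoids (Vgrp S)}

variable (K hp hav) in
/-- The field of a set is given by fixed words. -/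
def HWord (e : Set S) : Prop :=
  ∀ v, ∃ x : F.Free, ∀ (M : F.Model) (Φ : Fields K M), (Φ.setup hp hav).Base →
    (Φ.setup hp hav).h e v = M.f x

theorem hword_inter {a b : Set S} (da : K.Def a) (db : K.Def b) (ha : HWord K hp hav a)
    (hb : HWord K hp hav b) : HWord K hp hav (a ∩ b) := by
  intro v
  have hv : v ∈ commutator (Vgrp S) := hp ▸ Subgroup.mem_top v
  rw [commutator_eq_closure] at hv
  induction hv using Subgroup.closure_induction with
  | mem x hx =>
    obtain ⟨g, g', rfl⟩ := hx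
    obtain ⟨y, hy⟩ := ha g
    obtain ⟨y', hy'⟩ := hb g'
    refine ⟨⁅y, y'⁆, fun M Φ hB => ?_⟩
    refine (Ctx.field_inter_comm hB.empty ((Φ.setup_def hp hav a).2 da)
      ((Φ.setup_def hp hav b).2 db) g g').trans ?_
    rw [map_commutatorElement]
    exact congrArg₂ (fun p q => ⁅p, q⁆) (hy M Φ hB) (hy' M Φ hB)
  | one => exact ⟨1, fun M Φ _ => by rw [map_one, map_one]; rfl⟩
  | mul p q _ _ h h' =>
    obtain ⟨y, hy⟩ := h
    obtain ⟨y', hy'⟩ := h'
    exact ⟨y * y', fun M Φ hB => by rw [map_mul, map_mul, ← hy M Φ hB, ← hy' M Φ hB]; rfl⟩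
  | inv p _ h =>
    obtain ⟨y, hy⟩ := h
    exact ⟨y⁻¹, fun M Φ hB => by rw [map_inv, map_inv, ← hy M Φ hB]; rfl⟩

theorem hword {e : Set S} (he : K.Def e) : HWord K hp hav e := by
  obtain ⟨t, rfl⟩ := he
  induction t with
  | full =>
    exact fun v => ⟨word v, fun M Φ hB =>
      (DFunLike.congr_fun (Setup.h_univ hB.empty) v).trans (Φ.phi.word v)⟩
  | var k =>
    intro v
    obtain ⟨y, rfl⟩ := vgen_surjective (F := F) v
    exact ⟨FreeGroup.lift (K.word k) y, fun M Φ hB =>
      (DFunLike.congr_fun (Setup.h_set (D := Φ.setup hp hav) hB.empty k) _).trans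
        (hom_eq_word M (Φ.fld_eq k) y)⟩
  | inter a b ha hb => exact hword_inter ⟨a, rfl⟩ ⟨b, rfl⟩ ha hb
  | diff a b ha hb =>
    intro v
    obtain ⟨y, hy⟩ := hword_inter (hp := hp) (hav := hav) (K := K) ⟨a, rfl⟩ ⟨b, rfl⟩ ha hb v
    obtain ⟨y', hy'⟩ := ha v
    refine ⟨y⁻¹ * y', fun M Φ hB => ?_⟩
    refine (Ctx.field_sdiff hB.empty ((Φ.setup_def hp hav _).2 ⟨a, rfl⟩)
      ((Φ.setup_def hp hav _).2 ⟨b, rfl⟩) v).trans ?_
    rw [map_mul, map_inv, ← hy M Φ hB, ← hy' M Φ hB]
    rfl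

variable (K hp hav) in
theorem exists_chain_word (w : List F.ι) : ∀ (p r q : List Bool) (e : Set S),
    ∃ x : F.Free, ∀ (M : F.Model) (Φ : Fields K M), (Φ.setup hp hav).Base →
      (Φ.setup hp hav).Def e → (Φ.setup hp hav).chain p r q e w = M.f x := by
  induction w with
  | nil =>
    intro p r q e
    by_cases he : K.Def e
    swap
    · exact ⟨1, fun M Φ _ h => absurd ((Φ.setup_def hp hav e).1 h) he⟩
    by_cases h : Apart p q
    · obtain ⟨x, hx⟩ := hword (hp := hp) (hav := hav) he (vswap h)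
      exact ⟨x, fun M Φ hB _ => (Setup.sw_eq h).trans (hx M Φ hB)⟩
    · exact ⟨1, fun M Φ _ _ => (dif_neg h).trans (map_one M.f).symm⟩
  | cons i w ih =>
    intro p r q e
    obtain ⟨x, hx⟩ := ih r p q {t | ∃ s ∈ e, (s, t) ∈ F.g i}
    let k : F.Free := if hk : ∃ k : Vgrp S, MapsCone colA p k ∧ MapsCone colB r k then
      word hk.choose * FreeGroup.of (Sum.inr i) * (word hk.choose)⁻¹ else 1
    refine ⟨k * x * k⁻¹, fun M Φ hB hDe => ?_⟩
    have hk : (Φ.setup hp hav).place i p r = M.f k := by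
      unfold Setup.place
      simp only [k]
      split_ifs with h1
      · rw [map_mul, map_mul, map_inv, ← Φ.phi.word]
        rfl
      · exact (map_one M.f).symm
    have h := hx M Φ hB (Setup.def_img hB hDe i)
    rw [map_mul, map_mul, map_inv, ← hk, ← h]
    rfl

variable (hp hav) in
/-- A true inclusion of words eventually gives their congruence on the domain of the first. -/
theorem ev_cong {α : Type} (T : Loops.Sys S α) (ix : α → F.ι) (hix : ∀ l, F.g (ix l) = T.g l)
    (u v : List α) (hsub : ∀ x y, T.Run u x y → T.Run v x y) :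
    F.Ev fun M => ∀ Φ : Fields K M, (Φ.setup hp hav).Base →
      (Φ.setup hp hav).Cong (T.dom u) (u.map ix) (v.map ix) := by
  obtain ⟨xu, hu⟩ :=
    exists_chain_word K hp hav (u.map ix) colA (spare [colA, colB]) colB (T.dom u)
  obtain ⟨xv, hv⟩ :=
    exists_chain_word K hp hav (v.map ix) colA (spare [colA, colB]) colB (T.dom u)
  have facts : ∀ (M : F.Model) (Φ : Fields K M), (Φ.setup hp hav).Base →
      (Φ.setup hp hav).Def (T.dom u) ∧ (Φ.setup hp hav).WDef (u.map ix) (T.dom u) ∧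
        (Φ.setup hp hav).WDef (v.map ix) (T.dom u) := fun M Φ hB =>
    ⟨Setup.def_dom hB hix u, Setup.sys_wdef hix subset_rfl,
      Setup.sys_wdef hix fun x hx => hx.imp fun y hy => hsub x y hy⟩
  by_cases hex : ∃ (M : F.Model) (Φ : Fields K M), (Φ.setup hp hav).Base
  swap
  · exact Ev.of_forall fun M Φ hB => absurd ⟨M, Φ, hB⟩ hex
  obtain ⟨M₀, Φ₀, hB₀⟩ := hex
  obtain ⟨d0, wu, wv⟩ := facts M₀ Φ₀ hB₀
  have e1 : M₀.π ((Φ₀.setup hp hav).echain colA colB (T.dom u) (u.map ix)) = F.eval xu := by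
    rw [← M₀.comm]; exact congrArg M₀.π (hu M₀ Φ₀ hB₀ d0)
  have e2 : M₀.π ((Φ₀.setup hp hav).echain colA colB (T.dom u) (v.map ix)) = F.eval xv := by
    rw [← M₀.comm]; exact congrArg M₀.π (hv M₀ Φ₀ hB₀ d0)
  have hg : (Φ₀.setup hp hav).rgraph (T.dom u) (u.map ix) =
      (Φ₀.setup hp hav).rgraph (T.dom u) (v.map ix) := by
    ext ⟨x, y⟩
    refine and_congr_right fun hx => ?_
    refine (Setup.run_iff (D := Φ₀.setup hp hav) hix u).symm.trans
      (Iff.trans ?_ (Setup.run_iff (D := Φ₀.setup hp hav) hix v))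
    refine ⟨hsub x y, fun h => ?_⟩
    obtain ⟨z, hz⟩ := hx
    exact (Loops.Sys.run_func h (hsub x z hz)).symm ▸ hz
  have he : F.eval xu = F.eval xv := by
    rw [← e1, ← e2]
    exact (Setup.π_echain hB₀ d0 wu).trans
      ((gswap_congr _ _ _ hg).trans (Setup.π_echain hB₀ d0 wv).symm)
  refine (Ev.rel he).mono fun M hM Φ hB => ?_
  obtain ⟨d1, wu1, wv1⟩ := facts M Φ hB
  exact ⟨wu1, wv1, ((hu M Φ hB d1).trans hM).trans (hv M Φ hB d1).symm⟩

/-- Eventually indices with the same graph have the same generator. -/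
theorem ev_sameG : F.Ev fun M => ∀ Φ : Fields K M, (Φ.setup hp hav).SameG := by
  have := F.fin_ι
  refine (Ev.all (β := F.ι × F.ι)
    (a := fun p M => F.g p.1 = F.g p.2 →
      M.f (FreeGroup.of (Sum.inr p.1)) = M.f (FreeGroup.of (Sum.inr p.2))) fun p => ?_).mono
    fun M hM Φ i j h => hM (i, j) h
  by_cases h : F.g p.1 = F.g p.2
  · refine (Ev.rel (F := F) ?_).mono fun M hM _ => hM
    rw [F.eval_inr, F.eval_inr]
    exact gswap_congr _ _ _ h
  · exact Ev.of_forall fun M h' => absurd h' h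

end Vale.Agent.P193.Calc.Frame
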